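import Mathlib

/-! Definitions used in the statement of the bicentralizer theorem (P132). -/

open scoped InnerProductSpace Topology
open Filter

namespace Vale.Agent.P132

universe u

variable {H : Type u} [NormedAddCommGroup H] [InnerProductSpace ℂ H] [CompleteSpace H]

/-- The centre of `M` consists of the scalars. -/
def IsFactor (M : VonNeumannAlgebra H) : Prop :=
  ∀ z ∈ M, (∀ x ∈ M, z * x = x * z) → ∃ c : ℂ, z = c • (1 : H →L[ℂ] H)

/-- `φ` restricted to `M` is a normal state: `φ x = ∑ ⟪ξ n, x (ξ n)⟫` with `∑ ‖ξ n‖² = 1`. -/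
def IsNormalState (M : VonNeumannAlgebra H) (φ : (H →L[ℂ] H) → ℂ) : Prop :=
  ∃ ξ : ℕ → H, HasSum (fun n => ‖ξ n‖ ^ 2) 1 ∧
    ∀ x ∈ M, HasSum (fun n => ⟪ξ n, x (ξ n)⟫_ℂ) (φ x)

/-- `φ (x* x) = 0` forces `x = 0` on `M`. -/
def IsFaithful (M : VonNeumannAlgebra H) (φ : (H →L[ℂ] H) → ℂ) : Prop :=
  ∀ x ∈ M, φ (star x * x) = 0 → x = 0

section GNS

variable {K : Type*} [NormedAddCommGroup K] [InnerProductSpace ℂ K]

/-- `Λ` restricted to `M` is a GNS map of `φ` into the Hilbert space `K`. -/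
def IsGNS (M : VonNeumannAlgebra H) (φ : (H →L[ℂ] H) → ℂ) (Λ : (H →L[ℂ] H) → K) : Prop :=
  Dense (Λ '' (M : Set (H →L[ℂ] H))) ∧ ∀ x ∈ M, ∀ y ∈ M, ⟪Λ x, Λ y⟫_ℂ = φ (star x * y)

/-- Graph of the Tomita operator `S`, the closure of `Λ x ↦ Λ x*`. -/
def graphS (M : VonNeumannAlgebra H) (Λ : (H →L[ℂ] H) → K) : Set (K × K) :=
  closure {p | ∃ x ∈ M, p = (Λ x, Λ (star x))}

/-- Graph of `S* S` for a conjugate linear operator `S` with graph `G`. -/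
def graphDelta (G : Set (K × K)) : Set (K × K) :=
  {p | ∃ η', (p.1, η') ∈ G ∧ ∀ q ∈ G, ⟪q.1, p.2⟫_ℂ = ⟪η', q.2⟫_ℂ}

/-- `l` is in the resolvent set of the operator `A` with graph `Γ`:
`A - l` is a bijection from the domain onto `K` with bounded inverse `T`. -/
def InResolvent (Γ : Set (K × K)) (l : ℂ) : Prop :=
  ∃ T : K →L[ℂ] K, ∀ η ζ : K, (η, ζ + l • η) ∈ Γ ↔ η = T ζ

end GNS

/-- The spectrum of the modular operator `Δ_φ = S* S` on the GNS space of `φ`. -/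
def modSpec (M : VonNeumannAlgebra H) (φ : (H →L[ℂ] H) → ℂ) : Set ℂ :=
  {l | ∃ (K : Type u) (_ : NormedAddCommGroup K) (_ : InnerProductSpace ℂ K) (_ : CompleteSpace K)
    (Λ : (H →L[ℂ] H) → K), IsGNS M φ Λ ∧ ¬ InResolvent (graphDelta (graphS M Λ)) l}

/-- Every positive real lies in the spectrum of the modular operator of every faithful normal
state. -/
def FullSpec (M : VonNeumannAlgebra H) : Prop :=
  ∀ ψ, IsNormalState M ψ → IsFaithful M ψ → ∀ t : ℝ, 0 < t → (t : ℂ) ∈ modSpec M ψ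

/-- A bounded sequence `w` in `M` with `‖w n φ - φ (w n)‖ → 0` in the norm of functionals
on `M`. -/
def AsymptCentral (M : VonNeumannAlgebra H) (φ : (H →L[ℂ] H) → ℂ) (w : ℕ → (H →L[ℂ] H)) : Prop :=
  (∀ n, w n ∈ M) ∧ (∃ C : ℝ, ∀ n, ‖w n‖ ≤ C) ∧
    ∀ ε : ℝ, 0 < ε → ∀ᶠ n in atTop, ∀ y ∈ M, ‖y‖ ≤ 1 → ‖φ (y * w n) - φ (w n * y)‖ ≤ ε

/-- The bicentralizer of `φ`. -/
def bicentralizer (M : VonNeumannAlgebra H) (φ : (H →L[ℂ] H) → ℂ) : Set (H →L[ℂ] H) :=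
  {a | a ∈ M ∧ ∀ w, AsymptCentral M φ w →
    ∀ η : H, Tendsto (fun n => (a * w n - w n * a) η) atTop (𝓝 0)}

end Vale.Agent.P132
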